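import Vale.Agent.P043.Pins

/-!
P043 core: the two-adic line family.

`V j k` is meant to be the odd part of `k`, read modulo 32, along the slope `j < 8`; the point
`(n, m)` sees `V j (m + j * n)`.
-/

namespace Vale.Agent.P043.Core

/-- The eight values come from the primitive state `(a, b)`. -/
def Compat (a b : ℤ) (u : Fin 8 → ℤ) : Prop :=
  ¬ (2 ∣ a ∧ 2 ∣ b) ∧ ∀ j : Fin 8,
    (¬ 2 ∣ a + (j : ℤ) * b → 32 ∣ u j - (a + (j : ℤ) * b)) ∧
    (2 ∣ a + (j : ℤ) * b → ¬ 4 ∣ a + (j : ℤ) * b → 32 ∣ u j - (a + (j : ℤ) * b) / 2)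

/-- Every point has a state, whose parities are those of the point unless both are even. -/
def IsFamily (V : Fin 8 → ℤ → ℤ) : Prop :=
  ∀ m n : ℤ, ∃ a b : ℤ, Compat a b (fun j => V j (m + (j : ℤ) * n)) ∧
    (¬ (2 ∣ m ∧ 2 ∣ n) → 2 ∣ a - m ∧ 2 ∣ b - n)

/-- No family is periodic. -/
def DescentPin : Prop :=
  ∀ V, IsFamily V → ∀ P : ℕ, 0 < P → ¬ ∀ j k, V j (k + (P : ℤ)) = V j k

/-- A periodicity-free family gives the line system (with the odd part as a solution). -/
def EncodePin : Prop :=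
  DescentPin → CorePin

theorem corePin_of (hd : DescentPin) (he : EncodePin) : CorePin := he hd

end Vale.Agent.P043.Core
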