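import Vale.Agent.P043.Core.Defs

/-!
P043 core: a two-adic line family is never periodic.

On odd arguments a family is affine modulo 16; the line through `n = 1` then fixes the states
modulo 8, an even argument sees the affine form halved, and a shift makes the halved family a
family again with half the period.
-/

namespace Vale.Agent.P043.Core

theorem dvd_congr {d x y : ℤ} (h : d ∣ x) (e : x = y) : d ∣ y := e ▸ h

theorem dvd_sub_zero_of_step {d : ℤ} (F : ℤ → ℤ) (h : ∀ t, d ∣ F (t + 1) - F t) (t : ℤ) :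
    d ∣ F t - F 0 := by
  induction t using Int.induction_on with
  | zero => simp
  | succ i ih => simpa using dvd_add (h i) ih
  | pred i ih =>
    have := h (-(i : ℤ) - 1)
    rw [sub_add_cancel] at this
    simpa using dvd_sub ih this

/-- On odd arguments a family is affine modulo `16`. -/
theorem exists_affine {V : Fin 8 → ℤ → ℤ} (hV : IsFamily V) :
    ∃ α γ β : ℤ, 2 ∣ β ∧ ¬ 2 ∣ α + γ ∧
      ∀ (j : Fin 8) (t : ℤ), 16 ∣ V j (2 * t + 1) - (α + γ * (2 * t + 1) + β * (j : ℤ)) := by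
  set A : ℤ → ℤ := fun t => V 0 (2 * t + 1) with hA
  set B : ℤ → ℤ := fun t => V 1 (2 * t + 1) - V 0 (2 * t + 1) with hB
  -- the line `n = 0`
  have h0 : ∀ t, ¬ 2 ∣ A t ∧ 2 ∣ B t ∧
      ∀ j : Fin 8, 32 ∣ V j (2 * t + 1) - (A t + (j : ℤ) * B t) := by
    intro t
    obtain ⟨a, b, hc, hp⟩ := hV (2 * t + 1) 0
    obtain ⟨ha, hb⟩ := hp (by omega)
    have hj : ∀ j : Fin 8, 32 ∣ V j (2 * t + 1) - (a + (j : ℤ) * b) := by
      intro j
      have h1 : 2 ∣ (j : ℤ) * b := dvd_mul_of_dvd_right (by omega) _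
      simpa using (hc.2 j).1 (by omega)
    have e0 := hj 0
    have e1 := hj 1
    simp at e0 e1
    simp only [hA, hB]
    refine ⟨by omega, by omega, fun j => ?_⟩
    have h2 : 32 ∣ (j : ℤ) * (V 1 (2 * t + 1) - V 0 (2 * t + 1) - b) :=
      dvd_mul_of_dvd_right (by omega) _
    have h3 : 32 ∣ V 0 (2 * t + 1) - a := e0
    exact dvd_congr (dvd_sub (dvd_sub (hj j) h2) h3) (by ring)
  -- the line `n = 2`
  have h2 : ∀ t, ∃ a b : ℤ, ∀ j : Fin 8,
      32 ∣ A (t + (j : ℤ)) + (j : ℤ) * B (t + (j : ℤ)) - (a + (j : ℤ) * b) := by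
    intro t
    obtain ⟨a, b, hc, hp⟩ := hV (2 * t + 1) 2
    obtain ⟨ha, hb⟩ := hp (by omega)
    refine ⟨a, b, fun j => ?_⟩
    have h1 : 2 ∣ (j : ℤ) * b := dvd_mul_of_dvd_right (by omega) _
    have h3 := (hc.2 j).1 (by omega)
    simp only [show 2 * t + 1 + (j : ℤ) * 2 = 2 * (t + (j : ℤ)) + 1 by ring] at h3
    exact dvd_congr (dvd_sub h3 ((h0 (t + (j : ℤ))).2.2 j)) (by ring)
  have hDD : ∀ s, 32 ∣ A (s + 2) - 2 * A (s + 1) + A s + 2 * (B (s + 2) - B (s + 1)) := by
    intro s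
    obtain ⟨a, b, h⟩ := h2 s
    have q0 := h 0
    have q1 := h 1
    have q2 := h 2
    simp at q0 q1 q2
    omega
  have hBB : ∀ s, 32 ∣ B (s + 2) - 2 * B (s + 1) + B s := by
    intro s
    obtain ⟨a, b, h⟩ := h2 (s - 1)
    have q1 := h 1
    have q2 := h 2
    have q3 := h 3
    simp at q1 q2 q3
    rw [show s - 1 + 2 = s + 1 by ring] at q2
    rw [show s - 1 + 3 = s + 2 by ring] at q3
    have := hDD s
    omega
  -- the line `n = 1`
  have h1 : ∀ t, 32 ∣ A (t + 2) - 2 * A (t + 1) + A t + 4 * (B (t + 2) - B (t + 1)) := by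
    intro t
    obtain ⟨a, b, hc, hp⟩ := hV (2 * t) 1
    obtain ⟨ha, hb⟩ := hp (by omega)
    have q1 := (hc.2 1).1
    have q3 := (hc.2 3).1
    have q5 := (hc.2 5).1
    simp at q1 q3 q5
    have r1 := q1 (by omega)
    have r3 := q3 (by omega)
    have r5 := q5 (by omega)
    rw [show 2 * t + 3 = 2 * (t + 1) + 1 by ring] at r3
    rw [show 2 * t + 5 = 2 * (t + 2) + 1 by ring] at r5
    have e1 := (h0 t).2.2 1
    have e3 := (h0 (t + 1)).2.2 3
    have e5 := (h0 (t + 2)).2.2 5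
    simp at e1 e3 e5
    have := hBB t
    omega
  have hB1 : ∀ t, 16 ∣ B (t + 1) - B t := by
    intro t
    have := hDD (t - 1)
    have := h1 (t - 1)
    rw [show t - 1 + 2 = t + 1 by ring, show t - 1 + 1 = t by ring] at *
    omega
  have hA1 : ∀ t, 32 ∣ A (t + 1 + 1) - A (t + 1) - (A (t + 1) - A t) := by
    intro t
    have := hDD t
    have := h1 t
    rw [show t + 1 + 1 = t + 2 by ring]
    omega
  set g : ℤ := A 1 - A 0 with hg
  have hAg : ∀ t, 32 ∣ A (t + 1) - A t - g := fun t => by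
    simpa [hg] using dvd_sub_zero_of_step (fun s => A (s + 1) - A s) hA1 t
  have hAt : ∀ t, 32 ∣ A t - t * g - A 0 := by
    intro t
    have := dvd_sub_zero_of_step (fun s => A s - s * g)
      (fun s => dvd_congr (hAg s) (by ring)) t
    simpa using this
  have hg2 : 2 * (g / 2) = g := by
    have := (h0 0).1
    have := (h0 1).1
    omega
  refine ⟨A 0 - g / 2, g / 2, B 0, (h0 0).2.1, ?_, fun j t => ?_⟩
  · rw [sub_add_cancel]; exact (h0 0).1
  · have e1 : (16 : ℤ) ∣ V j (2 * t + 1) - (A t + (j : ℤ) * B t) :=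
      dvd_trans (by norm_num) ((h0 t).2.2 j)
    have e2 : (16 : ℤ) ∣ A t - t * g - A 0 := dvd_trans (by norm_num) (hAt t)
    have e3 : (16 : ℤ) ∣ (j : ℤ) * (B t - B 0) :=
      dvd_mul_of_dvd_right (dvd_sub_zero_of_step B hB1 t) _
    exact dvd_congr (dvd_add (dvd_add e1 e2) e3) (by linear_combination t * hg2)

/-- The affine form, halved, is seen at even arguments. -/
theorem exists_halved {V : Fin 8 → ℤ → ℤ} (hV : IsFamily V) :
    ∃ α γ β : ℤ, 2 ∣ α ∧ ¬ 2 ∣ γ ∧ 2 ∣ β ∧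
      (∀ (j : Fin 8) (k : ℤ), ¬ 2 ∣ k → 16 ∣ V j k - (α + γ * k + β * (j : ℤ))) ∧
      ∀ (j : Fin 8) (k : ℤ), 2 ∣ k → ¬ 4 ∣ α + γ * k + β * (j : ℤ) →
        4 ∣ V j k - (α + γ * k + β * (j : ℤ)) / 2 := by
  obtain ⟨α, γ, β, hβ, hαγ, haff⟩ := exists_affine hV
  have hodd : ∀ (j : Fin 8) (k : ℤ), ¬ 2 ∣ k → 16 ∣ V j k - (α + γ * k + β * (j : ℤ)) := by
    intro j k hk
    obtain ⟨t, rfl⟩ : ∃ t, k = 2 * t + 1 := ⟨k / 2, by omega⟩
    exact haff j t
  -- the state on the line `n = 1`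
  have hstate : ∀ m : ℤ, ∃ a b : ℤ, Compat a b (fun j => V j (m + (j : ℤ))) ∧
      2 ∣ a - m ∧ ¬ 2 ∣ b ∧ 8 ∣ a - (α + γ * m) ∧ 8 ∣ b - (γ + β) := by
    intro m
    obtain ⟨a, b, hc, hp⟩ := hV m 1
    obtain ⟨ha, hb⟩ := hp (by omega)
    simp only [mul_one] at hc
    refine ⟨a, b, hc, ha, by omega, ?_⟩
    have get : ∀ j : Fin 8, ¬ 2 ∣ m + (j : ℤ) → ¬ 2 ∣ a + (j : ℤ) * b →
        16 ∣ (a - (α + γ * m)) + (j : ℤ) * (b - (γ + β)) := by
      intro j h h'
      have e1 : (16 : ℤ) ∣ V j (m + (j : ℤ)) - (a + (j : ℤ) * b) :=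
        dvd_trans (by norm_num) ((hc.2 j).1 h')
      exact dvd_congr (dvd_sub (hodd j _ h) e1) (by ring)
    by_cases hm : 2 ∣ m
    · have q1 := get 1 (by simp; omega) (by simp; omega)
      have q3 := get 3 (by simp; omega) (by simp; omega)
      simp at q1 q3
      omega
    · have q0 := get 0 (by simp; omega) (by simp; omega)
      have q2 := get 2 (by simp; omega) (by simp; omega)
      simp at q0 q2
      omega
  obtain ⟨a₀, b₀, -, -, hb₀, -, hbγ⟩ := hstate 0
  have hγ : ¬ 2 ∣ γ := by omega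
  refine ⟨α, γ, β, by omega, hγ, hβ, hodd, fun j k hk hξ => ?_⟩
  obtain ⟨a, b, hc, ha, hb, ha8, hb8⟩ := hstate (k - (j : ℤ))
  have hX : 8 ∣ (a + (j : ℤ) * b) - (α + γ * k + β * (j : ℤ)) := by
    exact dvd_congr (dvd_add ha8 (dvd_mul_of_dvd_right hb8 (j : ℤ))) (by ring)
  have hξ2 : 2 ∣ α + γ * k + β * (j : ℤ) := by
    have h1 : 2 ∣ γ * k := dvd_mul_of_dvd_right hk _
    have h2 : 2 ∣ β * (j : ℤ) := dvd_mul_of_dvd_left hβ _
    omega
  have := (hc.2 j).2 (by omega) (by omega)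
  simp only [sub_add_cancel] at this
  omega

theorem two_dvd_of_odd_pair {x y X b v w : ℤ} (hx : 32 ∣ x - X) (hy : 32 ∣ y - (X + 2 * b))
    (hv : 4 ∣ x - v) (hv' : 4 ∣ y - (v + 2 * w)) : 2 ∣ b - w := by
  omega

theorem two_dvd_of_even_pair {x y X b v w : ℤ} (hX : 2 ∣ X) (hx : 32 ∣ x - X / 2)
    (hy : 32 ∣ y - (X + 4 * b) / 2) (hv : 4 ∣ x - v) (hv' : 4 ∣ y - (v + 4 * w)) : 2 ∣ b := by
  omega

/-- The parities of a state of the halved family. -/
theorem parity_forced {a b m n u w : ℤ} {f : Fin 8 → ℤ} (hc : Compat a b f)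
    (hw : 2 ∣ w - n) (hmn : ¬ (2 ∣ m ∧ 2 ∣ n))
    (hi : ∀ j : Fin 8, ¬ 2 ∣ m + (j : ℤ) * n → 4 ∣ f j - (u + (j : ℤ) * w)) :
    2 ∣ a - m ∧ 2 ∣ b - n := by
  obtain ⟨hnd, hf⟩ := hc
  -- at two informed slopes two apart with odd values
  have podd : ∀ i j : Fin 8, (j : ℤ) = (i : ℤ) + 2 → ¬ 2 ∣ a + (i : ℤ) * b →
      ¬ 2 ∣ m + (i : ℤ) * n → 2 ∣ b - w := by
    intro i j e hX hk
    have hX' : ¬ 2 ∣ a + (j : ℤ) * b := by rw [e, add_mul]; omega
    have hk' : ¬ 2 ∣ m + (j : ℤ) * n := by rw [e, add_mul]; omega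
    refine two_dvd_of_odd_pair (y := f j) (v := u + (i : ℤ) * w) ((hf i).1 hX) (?_) (hi i hk) ?_
    · exact dvd_congr ((hf j).1 hX') (by rw [e]; ring)
    · exact dvd_congr (hi j hk') (by rw [e]; ring)
  -- at two informed slopes four apart with values twice odd
  have peven : ∀ i j : Fin 8, (j : ℤ) = (i : ℤ) + 4 → 2 ∣ a + (i : ℤ) * b →
      ¬ 4 ∣ a + (i : ℤ) * b → ¬ 2 ∣ m + (i : ℤ) * n → 2 ∣ b := by
    intro i j e hX hX4 hk
    have h1 : 2 ∣ a + (j : ℤ) * b := by rw [e, add_mul]; omega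
    have h2 : ¬ 4 ∣ a + (j : ℤ) * b := by rw [e, add_mul]; omega
    have hk' : ¬ 2 ∣ m + (j : ℤ) * n := by rw [e, add_mul]; omega
    refine two_dvd_of_even_pair (y := f j) (v := u + (i : ℤ) * w) (w := w) hX ((hf i).2 hX hX4) (?_) (hi i hk) ?_
    · exact dvd_congr ((hf j).2 h1 h2) (by rw [e, add_mul, add_assoc])
    · exact dvd_congr (hi j hk') (by rw [e]; ring)
  have h02 := podd 0 2
  have h13 := podd 1 3
  have h04 := peven 0 4
  have h15 := peven 1 5
  have h26 := peven 2 6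
  have h37 := peven 3 7
  simp at h02 h13 h04 h15 h26 h37
  clear hi hf podd peven
  by_cases hn : 2 ∣ n
  · clear h04 h15 h26 h37
    by_cases ha : 2 ∣ a
    · have := h13 (by omega) (by omega)
      omega
    · have := h02 (by omega) (by omega)
      omega
  by_cases hm : 2 ∣ m
  · clear h02 h04 h26
    by_cases hb : 2 ∣ b
    · have := h13 (by omega) (by omega)
      omega
    by_cases ha : 2 ∣ a
    · omega
    by_cases h4 : 4 ∣ a + b
    · have := h37 (by omega) (by omega) (by omega)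
      omega
    · have := h15 (by omega) (by omega) (by omega)
      omega
  · clear h13 h15 h37
    by_cases hb : 2 ∣ b
    · have := h02 (by omega) (by omega)
      omega
    by_cases ha : 2 ∣ a
    · by_cases h4 : 4 ∣ a
      · have := h26 (by omega) (by omega) (by omega)
        omega
      · have := h04 (by omega) (by omega) (by omega)
        omega
    · omega

/-- No family is periodic. -/
theorem descentPin : DescentPin := by
  intro V hV P
  induction P using Nat.strong_induction_on generalizing V with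
  | _ P ih =>
    intro hP hper
    obtain ⟨α, γ, β, hα, hγ, hβ, hodd, heven⟩ := exists_halved hV
    by_cases hPe : 2 ∣ P
    · -- halve the period
      obtain ⟨c, rfl⟩ := hα
      obtain ⟨d, rfl⟩ := hβ
      obtain ⟨Q, rfl⟩ := hPe
      refine ih Q (by omega) (fun j k => V j (2 * (k + c + (j : ℤ) * d))) ?_ (by omega) fun j k => ?_
      · intro m n
        obtain ⟨a, b, hc, -⟩ := hV (2 * m + 2 * c) (2 * n + 2 * d)
        have e : (fun j : Fin 8 => V j (2 * (m + (j : ℤ) * n + c + (j : ℤ) * d)))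
            = fun j : Fin 8 => V j (2 * m + 2 * c + (j : ℤ) * (2 * n + 2 * d)) :=
          funext fun j => congrArg (V j) (by ring)
        refine ⟨a, b, by rw [e]; exact hc, fun hmn => ?_⟩
        obtain ⟨r, hr⟩ : ∃ r, γ = 2 * r + 1 := ⟨γ / 2, by omega⟩
        subst hr
        refine parity_forced hc (u := c + (2 * r + 1) * (m + c)) (w := d + (2 * r + 1) * (n + d))
          ⟨r * (n + d) + d, by ring⟩ hmn fun j hj => ?_
        set k := 2 * m + 2 * c + (j : ℤ) * (2 * n + 2 * d) with hk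
        set u := c + (2 * r + 1) * (m + c) with hu
        set w := d + (2 * r + 1) * (n + d) with hw
        have hξ : 2 * c + (2 * r + 1) * k + 2 * d * (j : ℤ) = 2 * (u + (j : ℤ) * w) := by
          rw [hk, hu, hw]; ring
        have hp : 2 ∣ (u + (j : ℤ) * w) - (m + (j : ℤ) * n) :=
          ⟨r * (m + c) + c + (j : ℤ) * (r * (n + d) + d), by rw [hu, hw]; ring⟩
        have := heven j k ⟨m + c + (j : ℤ) * (n + d), by rw [hk]; ring⟩ (by rw [hξ]; omega)
        rw [hξ] at this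
        omega
      · have := hper j (2 * (k + c + (j : ℤ) * d))
        rw [← this]
        congr 1
        push_cast
        ring
    · -- an odd period contradicts the halved form
      obtain ⟨c, rfl⟩ := hα
      obtain ⟨r, hr⟩ : ∃ r, γ = 2 * r + 1 := ⟨γ / 2, by omega⟩
      subst hr
      set k := 2 - 2 * c with hk
      have hξ : 2 * c + (2 * r + 1) * k + β * ((0 : Fin 8) : ℤ) = 2 + 4 * (r * (1 - c)) := by
        rw [hk]; simp; ring
      have hξ' : 2 * c + (2 * r + 1) * (k + 4) + β * ((0 : Fin 8) : ℤ)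
          = 2 + 4 * (r * (1 - c)) + 4 * (2 * r + 1) := by rw [← hξ]; ring
      have e1 := heven 0 k (by omega) (by rw [hξ]; omega)
      have e2 := heven 0 (k + 4) (by omega) (by rw [hξ']; omega)
      have e3 := hodd 0 (k + (P : ℤ)) (by omega)
      have e4 := hodd 0 (k + 4 + (P : ℤ)) (by omega)
      rw [hper] at e3 e4
      rw [hξ] at e1
      rw [hξ'] at e2
      rw [show (2 * r + 1) * (k + 4 + (P : ℤ)) = (2 * r + 1) * (k + (P : ℤ)) + 4 * (2 * r + 1) by
        ring] at e4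
      omega

end Vale.Agent.P043.Core
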