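import Vale.Agent.P043.Core.Encode.Family

/-!
P043 core, encoding: families of two-adic values become a line system.

The relation at a point is a condition on forty value bits and two parity bits. Every forbidden
assignment of these bits gets one long clause, split by a chain of variables without invariance.
-/

namespace Vale.Agent.P043.Core.Encode

/-- The value bits `inl (j, i)` and the parity bits `inr false` of `n`, `inr true` of `m`. -/
abbrev Base : Type := (Fin 8 × Fin 5) ⊕ Bool

/-- The number of base bits. -/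
def size : ℕ := Fintype.card Base

/-- An enumeration of the base bits. -/
noncomputable def enum : Fin size ≃ Base := (Fintype.equivFin Base).symm

/-- All variables: base bits, and one chain for each assignment of the base bits. -/
abbrev Var : Type := Base ⊕ ((Base → Bool) × Fin (size + 1))

/-- The number with five given binary digits. -/
def val (w : Fin 5 → Bool) : ℤ := ∑ i : Fin 5, if w i then 2 ^ i.1 else 0

/-- The five binary digits of an integer modulo `32`. -/
def digit (v : ℤ) (i : Fin 5) : Bool := Nat.testBit (v % 32).toNat i.1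

theorem dvd_val_digit_sub (v : ℤ) : 32 ∣ val (digit v) - v := by
  have h : ∀ r : Fin 32, val (fun i => Nat.testBit r.1 i.1) = (r.1 : ℤ) := by decide
  have hr : (v % 32).toNat < 32 := by omega
  have h1 : val (digit v) = ((v % 32).toNat : ℤ) := h ⟨_, hr⟩
  omega

theorem compat_congr {a b : ℤ} {u u' : Fin 8 → ℤ} (h : Compat a b u)
    (he : ∀ j, 32 ∣ u' j - u j) : Compat a b u' := by
  refine ⟨h.1, fun j => ⟨fun h1 => ?_, fun h1 h2 => ?_⟩⟩
  · have := (h.2 j).1 h1
    have := he j
    omega
  · have := (h.2 j).2 h1 h2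
    have := he j
    omega

/-- The allowed assignments of the base bits. -/
def Allowed (g : Base → Bool) : Prop :=
  ∃ a b : ℤ, Compat a b (fun j => val fun i => g (.inl (j, i))) ∧
    (¬ (g (.inr true) = false ∧ g (.inr false) = false) →
      (2 ∣ a ↔ g (.inr true) = false) ∧ (2 ∣ b ↔ g (.inr false) = false))

/-- The invariance vectors. -/
def per : Var → ℤ × ℤ
  | .inl (.inl (j, _)) => (1, -(j.1 : ℤ))
  | .inl (.inr false) => (0, 1)
  | .inl (.inr true) => (1, 0)
  | .inr _ => (0, 0)

/-- The clauses of the chain of an assignment. -/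
def ChainClause (g : Base → Bool) (K : Fin 3 → Var × Bool) : Prop :=
  (K = fun _ => (.inr (g, 0), false)) ∨ (K = fun _ => (.inr (g, Fin.last size), true)) ∨
    ∃ i : Fin size, K = ![(.inr (g, i.succ), false), (.inr (g, i.castSucc), true),
      (.inl (enum i), !(g (enum i)))]

open Classical in
/-- All clauses. -/
noncomputable def clauseSet : Finset (Fin 3 → Var × Bool) :=
  (Set.toFinite {K | ∃ g, ¬ Allowed g ∧ ChainClause g K}).toFinset

theorem mem_clauseSet (K : Fin 3 → Var × Bool) :
    K ∈ clauseSet ↔ ∃ g, ¬ Allowed g ∧ ChainClause g K := by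
  classical
  exact Set.Finite.mem_toFinset _

attribute [local irreducible] clauseSet

/-- The line system of the two-adic relation. -/
noncomputable def lineSys : LineSys where
  B := Var
  fintypeB := inferInstance
  decEqB := inferInstance
  per := per
  parX := .inl (.inr false)
  parY := .inl (.inr true)
  clauses := clauseSet

/-- Chain variables can be set whenever the base bits are allowed. -/
theorem exists_chain (p : Base → Bool) (hp : Allowed p) :
    ∃ z : (Base → Bool) × Fin (size + 1) → Bool, ∀ g, ¬ Allowed g → ∀ K, ChainClause g K →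
      ∃ i : Fin 3, Sum.elim p z (K i).1 = (K i).2 := by
  classical
  refine ⟨fun gk => decide (∃ i : Fin size, i.1 < gk.2.1 ∧ p (enum i) ≠ gk.1 (enum i)),
    fun g hg K hK => ?_⟩
  rcases hK with rfl | rfl | ⟨i, rfl⟩
  · exact ⟨0, by simp⟩
  · refine ⟨0, ?_⟩
    have hne : p ≠ g := fun h => hg (h ▸ hp)
    obtain ⟨x, hx⟩ := Function.ne_iff.mp hne
    simp only [Sum.elim_inr, decide_eq_true_eq]
    exact ⟨enum.symm x, (enum.symm x).2, by simpa using hx⟩
  · by_cases h1 : p (enum i) = g (enum i)
    · by_cases h2 : ∃ k : Fin size, k.1 < i.1 ∧ p (enum k) ≠ g (enum k)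
      · exact ⟨1, by simpa using h2⟩
      · refine ⟨0, ?_⟩
        simp only [Matrix.cons_val_zero, Sum.elim_inr, decide_eq_false_iff_not, not_exists]
        rintro k ⟨hk, hk'⟩
        rcases eq_or_ne k i with rfl | hne
        · exact hk' h1
        · refine h2 ⟨k, ?_, hk'⟩
          have := Fin.val_ne_of_ne hne
          simp only [Fin.val_succ] at hk
          omega
    · refine ⟨2, ?_⟩
      cases hpi : p (enum i) <;> cases hgi : g (enum i) <;> simp_all

/-- The chains exclude the forbidden assignments. -/
theorem allowed_of_clauses (v : Var → Bool)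
    (hv : ∀ K ∈ clauseSet, ∃ i : Fin 3, v (K i).1 = (K i).2) :
    Allowed fun x => v (.inl x) := by
  by_contra hg
  set g : Base → Bool := fun x => v (.inl x) with hgdef
  have hz : ∀ k : Fin (size + 1), v (.inr (g, k)) = false := by
    intro k
    induction k using Fin.induction with
    | zero =>
      obtain ⟨i, hi⟩ := hv _ ((mem_clauseSet _).2 ⟨g, hg, Or.inl rfl⟩)
      exact hi
    | succ k ih =>
      obtain ⟨i, hi⟩ := hv _ ((mem_clauseSet _).2 ⟨g, hg, Or.inr (Or.inr ⟨k, rfl⟩)⟩)
      fin_cases i
      · exact hi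
      · exact absurd hi (by simp [ih])
      · exact absurd hi (by simp [hgdef])
  obtain ⟨i, hi⟩ := hv _ ((mem_clauseSet _).2 ⟨g, hg, Or.inr (Or.inl rfl)⟩)
  simp [hz] at hi

/-- The base bits of the standard solution. -/
noncomputable def stdBase (x : ℤ × ℤ) : Base → Bool
  | .inl (j, i) => digit (oddPart (x.2 + (j.1 : ℤ) * x.1)) i
  | .inr false => decide (¬ 2 ∣ x.1)
  | .inr true => decide (¬ 2 ∣ x.2)

theorem allowed_stdBase (x : ℤ × ℤ) : Allowed (stdBase x) := by
  obtain ⟨a, b, hab, hpar⟩ := isFamily_oddPart x.2 x.1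
  refine ⟨a, b, compat_congr hab fun j => ?_, ?_⟩
  · exact dvd_val_digit_sub _
  · simp only [stdBase, decide_eq_false_iff_not, not_not]
    intro h
    have := hpar h
    omega

theorem bool_flip {f : ℤ → Bool} (h : ∀ n, f (n + 1) = !f n) (n : ℤ) :
    f n = if 2 ∣ n then f 0 else !f 0 := by
  induction n using Int.induction_on with
  | zero => simp
  | succ k ih =>
    rw [h, ih]
    by_cases hk : (2 : ℤ) ∣ k
    · rw [if_pos hk, if_neg (by omega)]
    · rw [if_neg hk, if_pos (by omega), Bool.not_not]
  | pred k ih =>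
    have h' := h (-(k : ℤ) - 1)
    rw [sub_add_cancel, ih] at h'
    by_cases hk : (2 : ℤ) ∣ -(k : ℤ)
    · rw [if_pos hk] at h'
      rw [if_neg (by omega), h', Bool.not_not]
    · rw [if_neg hk] at h'
      rw [if_pos (by omega)]
      exact (Bool.not_inj h').symm

theorem exists_solution : ∃ c, lineSys.IsSol c := by
  choose z hz using fun x => exists_chain (stdBase x) (allowed_stdBase x)
  refine ⟨fun x => Sum.elim (stdBase x) (z x), ?_, ?_, ?_, ?_, ?_, ?_⟩
  · rintro x ((⟨j, i⟩ | ⟨_ | _⟩) | a)
    · simp only [lineSys, per, Sum.elim_inl, stdBase, Prod.fst_add, Prod.snd_add]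
      congr 2
      ring
    · simp [lineSys, per, stdBase]
    · simp [lineSys, per, stdBase]
    · simp only [lineSys, per, Sum.elim_inr, show ((0 : ℤ), (0 : ℤ)) = 0 from rfl, add_zero]
  · intro x
    simp only [lineSys, Sum.elim_inl, stdBase, Prod.fst_add]
    by_cases h : 2 ∣ x.1
    · rw [decide_eq_true (by omega), decide_eq_false (by omega), Bool.not_false]
    · rw [decide_eq_false (by omega), decide_eq_true h, Bool.not_true]
  · intro x
    simp [lineSys, stdBase]
  · intro x
    simp [lineSys, stdBase]
  · intro x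
    simp only [lineSys, Sum.elim_inl, stdBase, Prod.snd_add]
    by_cases h : 2 ∣ x.2
    · rw [decide_eq_true (by omega), decide_eq_false (by omega), Bool.not_false]
    · rw [decide_eq_false (by omega), decide_eq_true h, Bool.not_true]
  · intro x K hK
    obtain ⟨g, hg, hKg⟩ := (mem_clauseSet K).1 hK
    exact hz x g hg K hKg

/-- A periodic solution gives a periodic family. -/
theorem family_of_periodic {c : ℤ × ℤ → Var → Bool} (hc : lineSys.IsSol c) {P : ℕ}
    (hP : ∀ x, c (x + (0, (P : ℤ))) = c x) :
    ∃ V, IsFamily V ∧ ∀ j k, V j (k + (P : ℤ)) = V j k := by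
  obtain ⟨hper, hX1, hX2, hY1, hY2, hcl⟩ := hc
  let pX : Var := .inl (.inr false)
  let pY : Var := .inl (.inr true)
  let n₀ : ℤ := if c 0 pX then 1 else 0
  let m₀ : ℤ := if c 0 pY then 1 else 0
  have hpX : ∀ n m : ℤ, c (n, m) pX = if 2 ∣ n then c 0 pX else !c 0 pX := by
    intro n m
    have h1 := (Function.Periodic.zsmul (f := fun x => c x pX) (hper · pX) m) (n, 0)
    have h2 := bool_flip (f := fun k => c (k, 0) pX)
      (fun k => by simpa [pX, lineSys] using hX1 (k, 0)) n
    simp [pX, lineSys, per] at h1 h2 ⊢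
    rw [h1, h2]
    rfl
  have hpY : ∀ n m : ℤ, c (n, m) pY = if 2 ∣ m then c 0 pY else !c 0 pY := by
    intro n m
    have h1 := (Function.Periodic.zsmul (f := fun x => c x pY) (hper · pY) n) (0, m)
    have h2 := bool_flip (f := fun k => c (0, k) pY)
      (fun k => by simpa [pY, lineSys] using hY2 (0, k)) m
    simp [pY, lineSys, per] at h1 h2 ⊢
    rw [h1, h2]
    rfl
  let V : Fin 8 → ℤ → ℤ := fun j k =>
    val fun i => c (0, k + (m₀ + (j.1 : ℤ) * n₀)) (.inl (.inl (j, i)))
  refine ⟨V, fun m n => ?_, fun j k => ?_⟩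
  · obtain ⟨a, b, hab, hpar⟩ := allowed_of_clauses _ fun K hK => hcl (n + n₀, m + m₀) K hK
    refine ⟨a, b, compat_congr hab fun j => ?_, fun hne => ?_⟩
    · have hV : V j (m + (j : ℤ) * n) =
          val fun i => c (n + n₀, m + m₀) (.inl (.inl (j, i))) := by
        refine congrArg val (funext fun i => ?_)
        have h := (Function.Periodic.zsmul (f := fun x => c x (.inl (.inl (j, i))))
          (hper · (.inl (.inl (j, i)))) (n + n₀)) (0, m + (j : ℤ) * n + (m₀ + (j.1 : ℤ) * n₀))
        simp only [lineSys, per, Prod.smul_mk, smul_eq_mul, Prod.mk_add_mk, zero_add,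
          mul_one, mul_neg] at h
        rw [← h]
        congr 2
        ring
      rw [hV, sub_self]
      exact dvd_zero _
    · simp only [pX, pY] at hpX hpY
      have eX := hpX (n + n₀) (m + m₀)
      have eY := hpY (n + n₀) (m + m₀)
      simp only at hpar
      rw [eX, eY] at hpar
      simp only [n₀, m₀, pX, pY] at hpar
      cases hx : c 0 (.inl (.inr false)) <;> cases hy : c 0 (.inl (.inr true)) <;>
        simp [hx, hy] at hpar <;> omega
  · refine congrArg val (funext fun i => ?_)
    have h := congrFun (hP (0, k + (m₀ + (j.1 : ℤ) * n₀))) (.inl (.inl (j, i)))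
    rw [Prod.mk_add_mk, zero_add,
      show k + (m₀ + (j.1 : ℤ) * n₀) + (P : ℤ) = k + (P : ℤ) + (m₀ + (j.1 : ℤ) * n₀) by ring] at h
    exact h

/-- A family without periods gives a line system without periodic solutions. -/
theorem encodePin : EncodePin := by
  intro hd
  refine ⟨lineSys, exists_solution, ?_⟩
  rintro c ⟨hc, P, hP, hPc⟩
  obtain ⟨V, hV, hVP⟩ := family_of_periodic hc fun x => (hPc x).2
  exact hd V hV P hP hVP

end Vale.Agent.P043.Core.Encode
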